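import Mathlib.GroupTheory.GroupAction.Quotient
import Mathlib.Algebra.Group.Action.Sigma
import Mathlib.SetTheory.Cardinal.Arithmetic
import Mathlib.Algebra.Group.End

universe u

namespace Vale.Agent.P323

open Cardinal MulAction

variable {G : Type u} [Group G]

/-- The conjugate `g H g⁻¹`. -/
def conjBy (g : G) (H : Subgroup G) : Subgroup G := H.map (MulAut.conj g).toMonoidHom

/-- A normal filter of subgroups. -/
structure IsNormalFilter (F : Set (Subgroup G)) : Prop where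
  top_mem : ⊤ ∈ F
  upward : ∀ H K, H ∈ F → H ≤ K → K ∈ F
  inf_mem : ∀ H K, H ∈ F → K ∈ F → H ⊓ K ∈ F
  conj_mem : ∀ g H, H ∈ F → conjBy g H ∈ F

/-- All stabilisers belong to the filter. -/
def Smooth (F : Set (Subgroup G)) (X : Type u) [MulAction G X] : Prop :=
  ∀ x : X, stabilizer G x ∈ F

/-- The Partition Principle for smooth sets: an equivariant surjection yields an injection
backwards, equivariant under some member of the filter. -/
def PartitionPrinciple (F : Set (Subgroup G)) : Prop :=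
  ∀ (X Y : Type u) (_ : MulAction G X) (_ : MulAction G Y), Smooth F X → Smooth F Y →
    ∀ f : X → Y, Function.Surjective f → (∀ (g : G) (x : X), f (g • x) = g • f x) →
      ∃ L ∈ F, ∃ j : Y → X, Function.Injective j ∧ ∀ g ∈ L, ∀ y, j (g • y) = g • j y

lemma conjBy_mono (g : G) {H K : Subgroup G} (h : H ≤ K) : conjBy g H ≤ conjBy g K :=
  Subgroup.map_mono h

lemma conjBy_conjBy (g h : G) (H : Subgroup G) :
    conjBy g (conjBy h H) = conjBy (g * h) H := by
  unfold conjBy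
  rw [Subgroup.map_map]
  congr 1
  ext x
  simp [mul_assoc]

lemma conjBy_one (H : Subgroup G) : conjBy 1 H = H := by
  ext x
  simp [conjBy]

lemma stab_coset (H : Subgroup G) (a : G) :
    stabilizer G (a : G ⧸ H) = conjBy a H := by
  have h : (a : G ⧸ H) = a • ((1 : G) : G ⧸ H) := by simp
  rw [h, stabilizer_smul_eq_stabilizer_map_conj, stabilizer_quotient]
  rfl

lemma smul_sigma_fix {ι : Type u} {α : ι → Type u} [∀ i, MulAction G (α i)] (g : G) (i : ι)
    (x : α i) : g • (⟨i, x⟩ : Σ i, α i) = ⟨i, x⟩ ↔ g • x = x := by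
  simp [Sigma.smul_mk]

lemma stab_sigma {ι : Type u} {α : ι → Type u} [∀ i, MulAction G (α i)] (i : ι) (x : α i) :
    stabilizer G (⟨i, x⟩ : Σ i, α i) = stabilizer G x := by
  ext g
  exact smul_sigma_fix g i x

variable {F : Set (Subgroup G)}

lemma smooth_cosets (hF : IsNormalFilter F) {ι : Type u} (K : ι → Subgroup G)
    (hK : ∀ i, K i ∈ F) : Smooth F (Σ i, G ⧸ K i) := by
  rintro ⟨i, q⟩
  obtain ⟨a, rfl⟩ := QuotientGroup.mk_surjective q
  rw [stab_sigma, stab_coset]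
  exact hF.conj_mem _ _ (hK i)

/-- The natural projection between sums of coset spaces. -/
def proj {ι : Type u} (K H : ι → Subgroup G) (h : ∀ i, K i ≤ H i) :
    (Σ i, G ⧸ K i) → Σ i, G ⧸ H i :=
  fun p => ⟨p.1, Subgroup.quotientMapOfLE (h p.1) p.2⟩

lemma proj_surjective {ι : Type u} (K H : ι → Subgroup G) (h : ∀ i, K i ≤ H i) :
    Function.Surjective (proj K H h) := by
  rintro ⟨i, q⟩
  obtain ⟨a, rfl⟩ := QuotientGroup.mk_surjective q
  exact ⟨⟨i, (a : G ⧸ K i)⟩, rfl⟩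

lemma proj_smul {ι : Type u} (K H : ι → Subgroup G) (h : ∀ i, K i ≤ H i) (g : G)
    (p : Σ i, G ⧸ K i) : proj K H h (g • p) = g • proj K H h p := by
  obtain ⟨i, q⟩ := p
  obtain ⟨a, rfl⟩ := QuotientGroup.mk_surjective q
  rfl

/-- Multiplicities growing faster than everything before. -/
lemma exists_growth (ι : Type u) [LT ι] [WellFoundedLT ι] (b : Cardinal.{u}) :
    ∃ c : ι → Cardinal.{u}, ∀ i, c i = 2 ^ (b + Cardinal.sum fun j : {j // j < i} => c j.1) :=
  ⟨wellFounded_lt.fix fun i c => 2 ^ (b + Cardinal.sum fun j : {j // j < i} => c j.1 j.2),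
    fun i => wellFounded_lt.fix_eq
      (C := fun _ : ι => Cardinal.{u})
      (fun i c => 2 ^ (b + Cardinal.sum fun j : {j // j < i} => c j.1 j.2)) i⟩

/-- A well-ordered family which is cofinal up to conjugacy, none of whose initial segments is,
contradicts the Partition Principle. -/
lemma no_long_family (hF : IsNormalFilter F) (hPP : PartitionPrinciple F) (ι : Type u)
    [LinearOrder ι] [WellFoundedLT ι] (L M : ι → Subgroup G) (hL : ∀ i, L i ∈ F)
    (hM : ∀ i, M i ∈ F) (hcof : ∀ H ∈ F, ∃ i g, conjBy g (L i) ≤ H)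
    (hne : ∀ i j, j ≤ i → ∀ g, ¬ conjBy g (L j) ≤ M i) : False := by
  obtain ⟨c, hc⟩ := exists_growth ι (max ℵ₀ #G)
  let P := Σ i, (c i).out
  let K : P → Subgroup G := fun p => L p.1 ⊓ M p.1
  let H : P → Subgroup G := fun p => L p.1
  have hle : ∀ p, K p ≤ H p := fun p => inf_le_left
  obtain ⟨T, hT, j, hj, heq⟩ := hPP _ _ inferInstance inferInstance
    (smooth_cosets hF K fun p => hF.inf_mem _ _ (hL _) (hM _))
    (smooth_cosets hF H fun p => hL _) (proj K H hle) (proj_surjective K H hle)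
    (proj_smul K H hle)
  obtain ⟨i, g, hg⟩ := hcof T hT
  let y : (c i).out → Σ p, G ⧸ H p := fun w => ⟨⟨i, w⟩, (g : G ⧸ H ⟨i, w⟩)⟩
  have low : ∀ w, (j (y w)).1.1 < i := by
    intro w
    by_contra hlt
    generalize hx : j (y w) = x at hlt
    obtain ⟨p, q⟩ := x
    obtain ⟨a, rfl⟩ := QuotientGroup.mk_surjective q
    have hfix : conjBy g (L i) ≤ conjBy a (K p) := by
      intro s hs
      rw [← stab_coset, mem_stabilizer_iff, ← smul_sigma_fix (α := fun p => G ⧸ K p) s p, ← hx, ← heq s (hg hs)]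
      congr 1
      rw [smul_sigma_fix, ← mem_stabilizer_iff, stab_coset]
      exact hs
    refine hne p.1 i (not_lt.1 hlt) (a⁻¹ * g) ?_
    have := conjBy_mono a⁻¹ hfix
    rw [conjBy_conjBy, conjBy_conjBy, inv_mul_cancel, conjBy_one] at this
    exact this.trans inf_le_right
  let code : (c i).out → (Σ k : {k // k < i}, (c k.1).out) × G :=
    fun w => (⟨⟨(j (y w)).1.1, low w⟩, (j (y w)).1.2⟩, Quotient.out (j (y w)).2)
  have hcode : Function.Injective code := by
    intro w w' h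
    have key : ∀ x x' : Σ p, G ⧸ K p, ∀ (hx : x.1.1 < i) (hx' : x'.1.1 < i),
        ((⟨⟨x.1.1, hx⟩, x.1.2⟩ : Σ k : {k // k < i}, (c k.1).out), Quotient.out x.2) =
          (⟨⟨x'.1.1, hx'⟩, x'.1.2⟩, Quotient.out x'.2) → x = x' := by
      rintro ⟨⟨k, v⟩, q⟩ ⟨⟨k', v'⟩, q'⟩ hx hx' h
      obtain ⟨h1, h2⟩ := Prod.ext_iff.1 h
      simp only [Sigma.mk.injEq, Subtype.mk.injEq] at h1
      obtain ⟨rfl, h1⟩ := h1
      obtain rfl := eq_of_heq h1
      obtain rfl := Quotient.out_inj.1 h2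
      rfl
    have hjw : j (y w) = j (y w') := key _ _ (low w) (low w') h
    exact eq_of_heq (Sigma.mk.inj_iff.1 (congrArg Sigma.fst (hj hjw))).2
  have h1 := Cardinal.mk_le_of_injective hcode
  rw [Cardinal.mk_out, Cardinal.mk_prod, Cardinal.mk_sigma, Cardinal.lift_id, Cardinal.lift_id,
    funext (fun k : {k // k < i} => Cardinal.mk_out (c k.1))] at h1
  set S := Cardinal.sum fun k : {k // k < i} => c k.1 with hS
  have hb : ℵ₀ ≤ max ℵ₀ #G + S := le_add_right (le_max_left _ _)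
  have h2 : c i ≤ max ℵ₀ #G + S :=
    calc c i ≤ S * #G := h1
      _ ≤ (max ℵ₀ #G + S) * (max ℵ₀ #G + S) :=
        mul_le_mul' le_add_self ((le_max_right _ _).trans le_self_add)
      _ = max ℵ₀ #G + S := Cardinal.mul_eq_self hb
  rw [hc i, ← hS] at h2
  exact (Cardinal.cantor _).not_ge h2

/-- Some member has a conjugate inside every member. -/
theorem exists_universal (hF : IsNormalFilter F) (hPP : PartitionPrinciple F) :
    ∃ L₀ ∈ F, ∀ H ∈ F, ∃ g, conjBy g L₀ ≤ H := by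
  classical
  by_contra hno
  push Not at hno
  obtain ⟨ι, L, hL, hsurj⟩ : ∃ (ι : Type u) (L : ι → Subgroup G),
      (∀ i, L i ∈ F) ∧ ∀ H ∈ F, ∃ i, L i = H :=
    ⟨{L : Subgroup G // L ∈ F}, Subtype.val, fun i => i.2, fun H hH => ⟨⟨H, hH⟩, rfl⟩⟩
  obtain ⟨inst, wo⟩ := exists_wellFoundedLT ι
  let Cof : Set ι → Prop := fun s => ∀ H ∈ F, ∃ i ∈ s, ∃ g, conjBy g (L i) ≤ H
  let s : Set ι := {i | ¬ Cof {k | k < i}}
  have hs : Cof s := by
    intro H hH
    have hne : {i : ι | ∃ g, conjBy g (L i) ≤ H}.Nonempty := by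
      obtain ⟨i, rfl⟩ := hsurj H hH
      exact ⟨i, 1, by rw [conjBy_one]⟩
    obtain ⟨i, hi, hmin⟩ := wellFounded_lt.has_min _ hne
    refine ⟨i, fun hc => ?_, hi⟩
    obtain ⟨k, hk, hg⟩ := hc H hH
    exact hmin k hg hk
  have hM : ∀ i : s, ∃ M ∈ F, ∀ k ≤ i.1, ∀ g, ¬ conjBy g (L k) ≤ M := by
    rintro ⟨i, hi⟩
    obtain ⟨H₀, hH₀, h₀⟩ : ∃ H₀ ∈ F, ∀ k < i, ∀ g, ¬ conjBy g (L k) ≤ H₀ := by
      have : ¬ Cof {k | k < i} := hi
      simpa [Cof] using this
    obtain ⟨H, hH, hHi⟩ := hno (L i) (hL i)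
    refine ⟨H₀ ⊓ H, hF.inf_mem _ _ hH₀ hH, fun k hk g hg => ?_⟩
    rcases hk.lt_or_eq with h | rfl
    · exact h₀ k h g (hg.trans inf_le_left)
    · exact hHi g (hg.trans inf_le_right)
  choose M hMF hMne using hM
  refine no_long_family hF hPP s (fun i => L i.1) M (fun i => hL i.1) hMF ?_
    (fun i k hk g => hMne i k.1 hk g)
  intro H hH
  obtain ⟨i, hi, g, hg⟩ := hs H hH
  exact ⟨⟨i, hi⟩, g, hg⟩

/-- Below some member every member is its meet with a conjugate of a prescribed one. -/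
theorem exists_coding (hF : IsNormalFilter F) (hPP : PartitionPrinciple F) {L₀ : Subgroup G}
    (hL₀ : ∀ H ∈ F, ∃ g, conjBy g L₀ ≤ H) {K : Subgroup G} (hK : K ∈ F) (hKL : K ≤ L₀) :
    ∃ T ∈ F, ∀ H ∈ F, H ≤ T → ∃ g, H = T ⊓ conjBy g K := by
  choose c hc using hL₀
  let ι := {H : Subgroup G // H ∈ F}
  let A : ι → Subgroup G := fun H => conjBy (c H.1 H.2) K
  let B : ι → Subgroup G := fun H => H.1
  have hle : ∀ H, A H ≤ B H := fun H => (conjBy_mono _ hKL).trans (hc H.1 H.2)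
  obtain ⟨T, hT, j, hj, heq⟩ := hPP _ _ inferInstance inferInstance
    (smooth_cosets hF A fun H => hF.conj_mem _ _ hK) (smooth_cosets hF B fun H => H.2)
    (proj A B hle) (proj_surjective A B hle) (proj_smul A B hle)
  refine ⟨T, hT, fun H hH hHT => ?_⟩
  let y : Σ H, G ⧸ B H := ⟨⟨H, hH⟩, ((1 : G) : G ⧸ B ⟨H, hH⟩)⟩
  have hy : stabilizer G y = H := by
    rw [stab_sigma, stab_coset, conjBy_one]
  generalize hx : j y = x
  obtain ⟨p, q⟩ := x
  obtain ⟨a, rfl⟩ := QuotientGroup.mk_surjective q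
  refine ⟨a * c p.1 p.2, ?_⟩
  rw [← conjBy_conjBy, ← stab_coset, ← stab_sigma (α := fun H => G ⧸ A H) p, ← hx]
  ext s
  constructor
  · intro hs
    refine ⟨hHT hs, ?_⟩
    show s • j y = j y
    rw [← heq s (hHT hs)]
    congr 1
    rw [← hy] at hs
    exact hs
  · rintro ⟨hsT, hs⟩
    rw [← hy]
    refine hj ?_
    rw [heq s hsT]
    exact hs

end Vale.Agent.P323
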