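import Vale.Agent.P323.Split
import Mathlib.Algebra.Group.Subgroup.Pointwise
import Mathlib.Tactic.Group
import Mathlib.GroupTheory.Solvable

universe u

namespace Vale.Agent.P323

open Cardinal MulAction
open scoped commutatorElement

variable {G : Type u} [Group G] {F : Set (Subgroup G)}

lemma mem_conjBy {g x : G} {H : Subgroup G} : x ∈ conjBy g H ↔ g⁻¹ * x * g ∈ H := by
  constructor
  · rintro ⟨y, hy, rfl⟩
    simpa [mul_assoc] using hy
  · intro h
    exact ⟨g⁻¹ * x * g, h, by simp [mul_assoc]⟩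

/-- The members of `F` above `D`. -/
def above (F : Set (Subgroup G)) (D : Subgroup G) : Set (Subgroup G) :=
  {H | H ∈ F ∧ D ≤ H}

lemma above_isNormalFilter (hF : IsNormalFilter F) (D : Subgroup G) [hD : D.Normal] :
    IsNormalFilter (above F D) where
  top_mem := ⟨hF.top_mem, le_top⟩
  upward H K hH hHK := ⟨hF.upward _ _ hH.1 hHK, hH.2.trans hHK⟩
  inf_mem H K hH hK := ⟨hF.inf_mem _ _ hH.1 hK.1, le_inf hH.2 hK.2⟩
  conj_mem g H hH := ⟨hF.conj_mem _ _ hH.1, fun x hx =>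
    mem_conjBy.2 (hH.2 (by simpa [mul_assoc] using hD.conj_mem x hx g⁻¹))⟩

lemma above_pp (hF : IsNormalFilter F) (hPP : PartitionPrinciple F) (D : Subgroup G) :
    PartitionPrinciple (above F D) := by
  intro X Y _ _ hX hY f hf hfe
  obtain ⟨L, hL, j, hj, heq⟩ := hPP X Y _ _ (fun x => (hX x).1) (fun y => (hY y).1) f hf hfe
  let S : Subgroup G :=
    { carrier := {g | ∀ y, j (g • y) = g • j y}
      mul_mem' := fun {a b} ha hb y => by rw [mul_smul, mul_smul, ha, hb]
      one_mem' := fun y => by simp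
      inv_mem' := fun {a} ha y => by
        rw [eq_inv_smul_iff, ← ha, smul_inv_smul] }
  have hS : L ⊔ D ≤ S := sup_le (fun g hg => heq g hg) fun g hg y => by
    rw [mem_stabilizer_iff.1 ((hY y).2 hg), mem_stabilizer_iff.1 ((hX (j y)).2 hg)]
  exact ⟨L ⊔ D, ⟨hF.upward _ _ hL le_sup_left, le_sup_right⟩, j, hj, fun g hg => hS hg⟩

lemma above_trace {L D : Subgroup G} (hDL : D ≤ L) :
    trace (above F D) L = above (trace F L) (D.subgroupOf L) := by
  ext H
  refine and_congr_right fun _ => ⟨fun h x hx => ?_, fun h x hx => ⟨⟨x, hDL hx⟩, h hx, rfl⟩⟩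
  obtain ⟨y, hy, hyx⟩ := h hx
  rwa [← Subtype.ext hyx]

lemma above_model (hF : IsNormalFilter F) (hPP : ModelPartitionPrinciple F) (D : Subgroup G) :
    ModelPartitionPrinciple (above F D) := by
  refine ⟨above_pp hF hPP.1 D, fun L hL => ?_⟩
  rw [above_trace hL.2]
  exact above_pp (trace_isNormalFilter hF hL.1) (hPP.2 L hL.1) _

lemma pp_equiv {H : Type u} [Group H] (e : G ≃* H) (F' : Set (Subgroup H))
    (h : ∀ K, K ∈ F ↔ K.map e.toMonoidHom ∈ F') (hPP : PartitionPrinciple F') :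
    PartitionPrinciple F := by
  intro X Y iX iY hX hY f hf hfe
  let : MulAction H X := MulAction.compHom X e.symm.toMonoidHom
  let : MulAction H Y := MulAction.compHom Y e.symm.toMonoidHom
  have key : ∀ (Z : Type u) [MulAction G Z] [MulAction H Z],
      (∀ (a : H) (z : Z), a • z = e.symm a • z) → Smooth F Z → Smooth F' Z := by
    intro Z _ _ hc hZ z
    have : stabilizer H z = (stabilizer G z).map e.toMonoidHom := by
      ext a
      rw [Subgroup.mem_map_equiv]
      simp [hc]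
    rw [this]
    exact (h _).1 (hZ z)
  obtain ⟨L, hL, j, hj, heq⟩ := hPP X Y _ _ (key X (fun _ _ => rfl) hX)
    (key Y (fun _ _ => rfl) hY) f hf (fun a x => hfe (e.symm a) x)
  refine ⟨L.comap e.toMonoidHom, (h _).2 ?_, j, hj, fun g hg y => ?_⟩
  · rwa [Subgroup.map_comap_eq_self_of_surjective e.surjective]
  · have := heq (e g) hg y
    change j (e.symm (e g) • y) = e.symm (e g) • j y at this
    simpa using this

lemma model_trace (hPP : ModelPartitionPrinciple F) {B : Subgroup G} (hB : B ∈ F) :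
    ModelPartitionPrinciple (trace F B) := by
  refine ⟨hPP.2 B hB, fun L hL => ?_⟩
  refine pp_equiv (L.equivMapOfInjective B.subtype B.subtype_injective)
    (trace F (L.map B.subtype)) (fun K => ?_) (hPP.2 _ hL)
  show (K.map L.subtype).map B.subtype ∈ F ↔ (K.map _).map (L.map B.subtype).subtype ∈ F
  rw [Subgroup.map_map, Subgroup.map_map]
  rfl

/-- Every member contains one with a conjugate inside each member below it. -/
lemma exists_rel (hF : IsNormalFilter F) (hPP : ModelPartitionPrinciple F) {B : Subgroup G}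
    (hB : B ∈ F) : ∃ A ∈ F, A ≤ B ∧ ∀ H ∈ F, H ≤ B → ∃ b ∈ B, conjBy b A ≤ H := by
  obtain ⟨L, hL, huniv⟩ := exists_universal (trace_isNormalFilter hF hB) (hPP.2 B hB)
  refine ⟨L.map B.subtype, hL, Subgroup.map_subtype_le L, fun H hH hHB => ?_⟩
  have hmem : H.subgroupOf B ∈ trace F B := by
    show (H.subgroupOf B).map B.subtype ∈ F
    rw [Subgroup.map_subgroupOf_eq_of_le hHB]
    exact hH
  obtain ⟨b, hb⟩ := huniv _ hmem
  refine ⟨b, b.2, ?_⟩
  have := Subgroup.map_mono (f := B.subtype) hb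
  rwa [map_conjBy, Subgroup.map_subgroupOf_eq_of_le hHB] at this

/-- `H` is a normal subgroup of `B`. -/
def NormalIn (H B : Subgroup G) : Prop :=
  H ≤ B ∧ ∀ b ∈ B, conjBy b H ≤ H

lemma NormalIn.eq {H B : Subgroup G} (h : NormalIn H B) {b : G} (hb : b ∈ B) :
    conjBy b H = H :=
  le_antisymm (h.2 b hb) (conjBy_le_iff.1 (h.2 b⁻¹ (B.inv_mem hb)) |>.trans_eq (by rw [inv_inv]))

lemma exists_least_normal (hF : IsNormalFilter F) (hPP : ModelPartitionPrinciple F)
    {B : Subgroup G} (hB : B ∈ F) :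
    ∃ N ∈ F, NormalIn N B ∧ ∀ Q ∈ F, NormalIn Q B → N ≤ Q := by
  obtain ⟨A, hA, hAB, huniv⟩ := exists_rel hF hPP hB
  have hBB : NormalIn B B := ⟨le_rfl, fun b hb => (conjBy_self hb).le⟩
  refine ⟨sInf {Q | Q ∈ F ∧ NormalIn Q B}, hF.upward _ _ hA (le_sInf fun Q hQ => ?_),
    ⟨sInf_le ⟨hB, hBB⟩, fun b hb => le_sInf fun Q hQ => ?_⟩, fun Q hQ hN => sInf_le ⟨hQ, hN⟩⟩
  · obtain ⟨b, hb, hle⟩ := huniv Q hQ.1 hQ.2.1
    exact (conjBy_le_iff.1 hle).trans (hQ.2.2 b⁻¹ (B.inv_mem hb))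
  · exact (conjBy_mono b (sInf_le hQ)).trans (hQ.2.2 b hb)

/-- The least normal member of a member has no proper normal member. -/
theorem exists_perfect (hF : IsNormalFilter F) (hPP : ModelPartitionPrinciple F)
    {B : Subgroup G} (hB : B ∈ F) :
    ∃ N ∈ F, NormalIn N B ∧ (∀ Q ∈ F, NormalIn Q B → N ≤ Q) ∧
      ∀ Q ∈ F, NormalIn Q N → Q = N := by
  obtain ⟨N, hN, hNB, hmin⟩ := exists_least_normal hF hPP hB
  obtain ⟨N', hN', hN'N, hmin'⟩ := exists_least_normal hF hPP hN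
  refine ⟨N, hN, hNB, hmin, fun Q hQ hQN => ?_⟩
  have hconj : ∀ b ∈ B, N' ≤ conjBy b N' := fun b hb => hmin' _ (hF.conj_mem _ _ hN')
    ⟨(conjBy_mono b hN'N.1).trans (hNB.2 b hb), fun n hn => by
      have h1 : b⁻¹ * n * b ∈ N := mem_conjBy.1 (by rw [hNB.eq hb]; exact hn)
      have := conjBy_mono b (hN'N.2 _ h1)
      simpa [conjBy_conjBy, mul_assoc] using this⟩
  have : NormalIn N' B := ⟨hN'N.1.trans hNB.1, fun b hb => by
    simpa [conjBy_conjBy, conjBy_one] using conjBy_mono b (hconj b⁻¹ (B.inv_mem hb))⟩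
  exact le_antisymm hQN.1 (((hmin _ hN' this)).trans (hmin' Q hQ hQN))

/-- A step of a normal series is harmless: no member is properly inside a conjugate within it,
or its orbits are below the continuum. -/
def Tame (F : Set (Subgroup G)) (D D' : Subgroup G) : Prop :=
  (∀ H ∈ F, D ≤ H → ∀ d ∈ D', ¬ conjBy d (H ⊓ D') < H ⊓ D') ∨
    ∀ H ∈ F, D ≤ H → #(D' ⧸ H.subgroupOf D') < 𝔠

lemma no_tame_top (hF : IsNormalFilter F) (hPP : ModelPartitionPrinciple F)
    {P A D D' : Subgroup G} [hD : D.Normal] [hD' : D'.Normal] (hP : P ∈ F)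
    (hperf : ∀ Q ∈ F, NormalIn Q P → Q = P) (hA : A ∈ F) (hAP : A ≤ P)
    (huniv : ∀ H ∈ F, H ≤ P → ∃ b ∈ P, conjBy b A ≤ H) (hne : ¬ P ≤ A ⊔ D)
    (htop : P ≤ A ⊔ D') (ht : Tame F D D') : False := by
  set M : Subgroup G := (A ⊔ D) ⊓ P with hM
  have hMF : M ∈ F := hF.inf_mem _ _ (hF.upward _ _ hA le_sup_left) hP
  have hAM : A ≤ M := le_inf le_sup_left hAP
  have split : ∀ x ∈ P, ∃ d ∈ D', d ∈ P ∧ ∃ a ∈ A, x = d * a := by
    intro x hx
    obtain ⟨a, ha, d, hd, h⟩ := Subgroup.mem_sup_of_normal_right.1 (htop (P.inv_mem hx))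
    refine ⟨d⁻¹, D'.inv_mem hd, P.inv_mem ?_, a⁻¹, A.inv_mem ha, ?_⟩
    · rw [show d = a⁻¹ * x⁻¹ by rw [← h]; group]
      exact P.mul_mem (P.inv_mem (hAP ha)) (P.inv_mem hx)
    · rw [← mul_inv_rev, h, inv_inv]
  have inside : ∀ H : Subgroup G, D ⊓ P ≤ H → ∀ b ∈ P, conjBy b A ≤ H → conjBy b M ≤ H := by
    intro H hH b hb hle x hx
    obtain ⟨hx1, hx2⟩ := mem_conjBy.1 hx
    obtain ⟨a, ha, z, hz, h⟩ := Subgroup.mem_sup_of_normal_right.1 hx1
    have hzP : z ∈ P := by
      rw [show z = a⁻¹ * (b⁻¹ * x * b) by rw [← h]; group]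
      exact P.mul_mem (P.inv_mem (hAP ha)) hx2
    rw [show x = (b * a * b⁻¹) * (b * z * b⁻¹) by
      rw [show b * a * b⁻¹ * (b * z * b⁻¹) = b * (a * z) * b⁻¹ by group, h]; group]
    exact H.mul_mem (hle ⟨a, ha, rfl⟩)
      (hH ⟨hD.conj_mem z hz b, P.mul_mem (P.mul_mem hb hzP) (P.inv_mem hb)⟩)
  rcases ht with ht | ht
  · have hnorm : ∀ a ∈ P, M ≤ conjBy a M := by
      intro a ha
      have hE : D ⊓ P ≤ M ⊓ conjBy a M := by
        intro z hz
        refine ⟨⟨Subgroup.mem_sup_right hz.1, hz.2⟩, mem_conjBy.2 ⟨Subgroup.mem_sup_right ?_,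
          P.mul_mem (P.mul_mem (P.inv_mem ha) hz.2) ha⟩⟩
        simpa [mul_assoc] using hD.conj_mem z hz.1 a⁻¹
      obtain ⟨b, hb, hle⟩ := huniv _ (hF.inf_mem _ _ hMF (hF.conj_mem _ _ hMF))
        (inf_le_left.trans inf_le_right)
      have hbM := inside _ hE b hb hle
      obtain ⟨d, hd, hdP, a', ha', rfl⟩ := split b hb
      rw [← conjBy_conjBy, conjBy_self (hAM ha')] at hbM
      have hdK : conjBy d (A ⊔ D) ≤ A ⊔ D := by
        unfold conjBy
        rw [Subgroup.map_sup]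
        exact sup_le ((conjBy_mono d hAM).trans (hbM.trans (inf_le_left.trans inf_le_left)))
          (fun x hx => Subgroup.mem_sup_right (by
            obtain ⟨y, hy, rfl⟩ := hx
            exact hD.conj_mem y hy d))
      have hdE : conjBy d ((A ⊔ D) ⊓ D') ≤ (A ⊔ D) ⊓ D' :=
        le_inf ((conjBy_mono d inf_le_left).trans hdK)
          ((conjBy_mono d inf_le_right).trans (conjBy_self hd).le)
      have heq := hdE.lt_or_eq.resolve_left
        (ht _ (hF.upward _ _ hA le_sup_left) le_sup_right d hd)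
      have hMd : M ≤ conjBy d M := by
        intro x hx
        rw [mem_conjBy]
        have h1 : d * x * d⁻¹ ∈ M := (hbM.trans inf_le_left) ⟨x, hx, rfl⟩
        have hf : (d * x * d⁻¹ * x⁻¹)⁻¹ ∈ (A ⊔ D) ⊓ D' := by
          refine Subgroup.inv_mem _ ⟨(M.mul_mem h1 (M.inv_mem hx)).1, ?_⟩
          rw [show d * x * d⁻¹ * x⁻¹ = d * (x * d⁻¹ * x⁻¹) by group]
          exact D'.mul_mem hd (hD'.conj_mem _ (D'.inv_mem hd) x)
        rw [← heq, mem_conjBy] at hf
        refine ⟨?_, P.mul_mem (P.mul_mem (P.inv_mem hdP) hx.2) hdP⟩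
        rw [show d⁻¹ * x * d = d⁻¹ * (d * x * d⁻¹ * x⁻¹)⁻¹ * d * x by group]
        exact mul_mem hf.1 hx.1
      exact hMd.trans (hbM.trans inf_le_right)
    have : NormalIn M P := ⟨inf_le_right, fun b hb => conjBy_le_iff.2 (hnorm b⁻¹ (P.inv_mem hb))⟩
    exact hne ((hperf M hMF this).ge.trans inf_le_left)
  · have hFP := trace_isNormalFilter hF hP
    have hF' := above_isNormalFilter hFP (D.subgroupOf P)
    have hPP' := above_model hFP (model_trace hPP hP) (D.subgroupOf P)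
    have hsmall : ∀ H ∈ above (trace F P) (D.subgroupOf P), #(P ⧸ H) < 𝔠 := by
      intro H hH
      set H₀ := H.map P.subtype with hH₀
      have hDH : D ⊓ P ≤ H₀ := fun z hz => ⟨⟨z, hz.2⟩, hH.2 hz.1, rfl⟩
      obtain ⟨b, hb, hle⟩ := huniv H₀ hH.1 (Subgroup.map_subtype_le H)
      have hrep : ∀ x : P, ∃ d ∈ D', ∃ hd : d ∈ P, (⟨d, hd⟩ : P)⁻¹ * x ∈ H := by
        intro x
        obtain ⟨d, hd, hdP, a, ha, h⟩ :=
          split (b⁻¹ * x * b) (P.mul_mem (P.mul_mem (P.inv_mem hb) x.2) hb)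
        refine ⟨b * d * b⁻¹, hD'.conj_mem d hd b, P.mul_mem (P.mul_mem hb hdP) (P.inv_mem hb), ?_⟩
        obtain ⟨w, hw, hwe⟩ := hle ⟨a, ha, rfl⟩
        suffices h2 : (b * d * b⁻¹)⁻¹ * (x : G) = w by
          have h3 : (⟨b * d * b⁻¹, P.mul_mem (P.mul_mem hb hdP) (P.inv_mem hb)⟩ : P)⁻¹ * x = w :=
            Subtype.ext h2
          rw [h3]
          exact hw
        rw [show (x : G) = b * (b⁻¹ * x * b) * b⁻¹ by group, h]
        change (w : G) = b * a * b⁻¹ at hwe
        rw [hwe]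
        group
      choose d hd hdP hdx using fun q : P ⧸ H => hrep q.out
      let c : P ⧸ H → D' ⧸ (H₀ ⊔ D).subgroupOf D' := fun q => ((⟨d q, hd q⟩ : D') : D' ⧸ _)
      have hc : Function.Injective c := by
        intro q q' h
        have h0' : (⟨d q, hd q⟩ : D')⁻¹ * ⟨d q', hd q'⟩ ∈ (H₀ ⊔ D).subgroupOf D' :=
          QuotientGroup.eq.1 h
        have h' : (d q)⁻¹ * d q' ∈ H₀ ⊔ D := h0'
        obtain ⟨y, hy, z, hz, hyz⟩ := Subgroup.mem_sup_of_normal_right.1 h'
        have hyP : y ∈ P := Subgroup.map_subtype_le H hy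
        have hzP : z ∈ P := by
          rw [show z = y⁻¹ * ((d q)⁻¹ * d q') by rw [← hyz]; group]
          exact P.mul_mem (P.inv_mem hyP) (P.mul_mem (P.inv_mem (hdP q)) (hdP q'))
        obtain ⟨w, hw, hwe⟩ : (d q)⁻¹ * d q' ∈ H₀ := hyz ▸ H₀.mul_mem hy (hDH ⟨hz, hzP⟩)
        have hwH : (⟨d q, hdP q⟩ : P)⁻¹ * ⟨d q', hdP q'⟩ ∈ H := by
          have h3 : (⟨d q, hdP q⟩ : P)⁻¹ * ⟨d q', hdP q'⟩ = w := Subtype.ext (by simpa using hwe.symm)
          rw [h3]
          exact hw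
        rw [← Quotient.out_eq q, ← Quotient.out_eq q']
        refine QuotientGroup.eq.2 ?_
        have := H.mul_mem (H.mul_mem (H.inv_mem (hdx q)) hwH) (hdx q')
        simpa [mul_assoc] using this
      exact (Cardinal.mk_le_of_injective hc).trans_lt
        (ht _ (hF.upward _ _ hH.1 le_sup_left) le_sup_right)
    rcases exists_least_or_large hF' hPP' with ⟨L, hL, hleast⟩ | ⟨H, hH, hbig⟩
    · have hn : NormalIn (L.map P.subtype) P := by
        refine ⟨Subgroup.map_subtype_le L, fun b hb => ?_⟩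
        have := hleast _ (hF'.conj_mem ⟨b, hb⟩⁻¹ L hL)
        rw [← conjBy_le_iff] at this
        have := Subgroup.map_mono (f := P.subtype) this
        rwa [map_conjBy] at this
      have hMm : M.subgroupOf P ∈ above (trace F P) (D.subgroupOf P) := by
        refine ⟨?_, fun z hz => ⟨Subgroup.mem_sup_right hz, z.2⟩⟩
        show (M.subgroupOf P).map P.subtype ∈ F
        rw [Subgroup.map_subgroupOf_eq_of_le inf_le_right]
        exact hMF
      have := Subgroup.map_mono (f := P.subtype) (hleast _ hMm)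
      rw [hperf _ hL.1 hn, Subgroup.map_subgroupOf_eq_of_le inf_le_right] at this
      exact hne (this.trans inf_le_left)
    · exact hbig.not_gt (hsmall H hH)

/-- With a finite normal series of tame steps there is a least member. -/
theorem exists_least_of_series (hF : IsNormalFilter F) (hPP : ModelPartitionPrinciple F)
    (k : ℕ) (D : ℕ → Subgroup G) (hD : ∀ i, (D i).Normal) (h0 : ∀ H ∈ F, D 0 ≤ H)
    (hk : D k = ⊤) (ht : ∀ i < k, Tame F (D i) (D (i + 1))) :
    ∃ L₀ ∈ F, ∀ H ∈ F, L₀ ≤ H := by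
  obtain ⟨P, hP, -, -, hperf⟩ := exists_perfect hF hPP hF.top_mem
  obtain ⟨A, hA, hAP, huniv⟩ := exists_rel hF hPP hP
  by_cases hPA : P ≤ A
  · refine ⟨P, hP, fun H hH => ?_⟩
    obtain ⟨b, hb, hle⟩ := huniv (H ⊓ P) (hF.inf_mem _ _ hH hP) inf_le_right
    rw [le_antisymm hAP hPA, conjBy_self hb] at hle
    exact hle.trans inf_le_left
  exfalso
  have : ∀ i ≤ k, ¬ P ≤ A ⊔ D i := by
    intro i
    induction i with
    | zero => exact fun _ h => hPA (h.trans (sup_le le_rfl (h0 A hA)))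
    | succ i ih =>
      intro hi h
      have := hD i
      have := hD (i + 1)
      exact no_tame_top hF hPP hP hperf hA hAP huniv (ih (by omega)) h (ht i (by omega))
  exact this k le_rfl (by rw [hk, sup_top_eq]; exact le_top)

/-- A step with abelian factor is tame. -/
lemma tame_of_commutator {D D' : Subgroup G} (h : ⁅D', D'⁆ ≤ D) : Tame F D D' := by
  refine Or.inl fun H _ hDH d hd hlt => hlt.not_ge fun x hx => ?_
  rw [mem_conjBy]
  have hc : ⁅d⁻¹, x⁆ ∈ H := hDH (h (Subgroup.commutator_mem_commutator (D'.inv_mem hd) hx.2))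
  rw [show d⁻¹ * x * d = ⁅d⁻¹, x⁆ * x by simp [commutatorElement_def, mul_assoc]]
  exact ⟨H.mul_mem hc hx.1,
    D'.mul_mem (Subgroup.commutator_le_self D' (Subgroup.commutator_mem_commutator
      (D'.inv_mem hd) hx.2)) hx.2⟩

/-- A soluble group leaves a least member. -/
theorem exists_least_of_solvable (hF : IsNormalFilter F) (hPP : ModelPartitionPrinciple F)
    [Group.IsSolvable G] : ∃ L₀ ∈ F, ∀ H ∈ F, L₀ ≤ H := by
  obtain ⟨k, hk⟩ := Group.IsSolvable.solvable (G := G)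
  refine exists_least_of_series hF hPP k (fun i => derivedSeries G (k - i))
    (fun i => derivedSeries_normal G _) (fun H _ => ?_) ?_ (fun i hi => tame_of_commutator ?_)
  · rw [Nat.sub_zero, hk]
    exact bot_le
  · rw [Nat.sub_self]
    rfl
  · rw [show k - i = (k - (i + 1)) + 1 by omega, derivedSeries_succ]

end Vale.Agent.P323
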