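import Vale.Agent.P323.Perm
import Mathlib.SetTheory.Cardinal.Continuum
import Mathlib.Algebra.Group.Subgroup.Lattice

universe u

namespace Vale.Agent.P323

open Cardinal

variable {G : Type u} [Group G] {F : Set (Subgroup G)}

/-- The trace of a filter on a subgroup. -/
def trace (F : Set (Subgroup G)) (L : Subgroup G) : Set (Subgroup L) :=
  {H | H.map L.subtype ∈ F}

/-- The Partition Principle in the permutation model: for every member `L` of the filter, the
maps with support `L` are the `L`-equivariant ones. -/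
def ModelPartitionPrinciple (F : Set (Subgroup G)) : Prop :=
  PartitionPrinciple F ∧ ∀ L ∈ F, PartitionPrinciple (trace F L)

lemma map_conjBy {L : Subgroup G} (g : L) (H : Subgroup L) :
    (conjBy g H).map L.subtype = conjBy (g : G) (H.map L.subtype) := by
  unfold conjBy
  rw [Subgroup.map_map, Subgroup.map_map]
  congr 1

lemma trace_isNormalFilter (hF : IsNormalFilter F) {L : Subgroup G} (hL : L ∈ F) :
    IsNormalFilter (trace F L) where
  top_mem := by
    show (⊤ : Subgroup L).map L.subtype ∈ F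
    rw [← MonoidHom.range_eq_map, Subgroup.range_subtype]
    exact hL
  upward H K hH hHK := hF.upward _ _ hH (Subgroup.map_mono hHK)
  inf_mem H K hH hK := by
    show (H ⊓ K).map L.subtype ∈ F
    rw [Subgroup.map_inf _ _ _ L.subtype_injective]
    exact hF.inf_mem _ _ hH hK
  conj_mem g H hH := by
    show (conjBy g H).map L.subtype ∈ F
    rw [map_conjBy]
    exact hF.conj_mem _ _ hH

/-- `A` is a proper subgroup of `B` with a `B`-conjugate inside every member below `B`. -/
structure Good (F : Set (Subgroup G)) (A B : Subgroup G) : Prop where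
  memA : A ∈ F
  memB : B ∈ F
  lt : A < B
  univ : ∀ H ∈ F, H ≤ B → ∃ b ∈ B, conjBy b A ≤ H

lemma conjBy_self {B : Subgroup G} {b : G} (hb : b ∈ B) : conjBy b B = B := by
  ext x
  constructor
  · rintro ⟨y, hy, rfl⟩
    exact B.mul_mem (B.mul_mem hb hy) (B.inv_mem hb)
  · intro hx
    refine ⟨b⁻¹ * x * b, B.mul_mem (B.mul_mem (B.inv_mem hb) hx) hb, ?_⟩
    simp [mul_assoc]

lemma conjBy_le_iff {g : G} {H K : Subgroup G} : conjBy g H ≤ K ↔ H ≤ conjBy g⁻¹ K := by
  constructor <;> intro h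
  · simpa [conjBy_conjBy, conjBy_one] using conjBy_mono g⁻¹ h
  · simpa [conjBy_conjBy, conjBy_one] using conjBy_mono g h

lemma conjBy_lt (g : G) {H K : Subgroup G} (h : H < K) : conjBy g H < conjBy g K :=
  lt_of_le_not_ge (conjBy_mono g h.le) fun h' => h.not_ge (by
    simpa [conjBy_conjBy, conjBy_one] using conjBy_mono g⁻¹ h')

/-- Every member has a proper member below it with conjugates inside everything below it. -/
lemma exists_good (hF : IsNormalFilter F) (hPP : ModelPartitionPrinciple F)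
    (hmin : ∀ B ∈ F, ∃ H ∈ F, H < B) {B : Subgroup G} (hB : B ∈ F) : ∃ A, Good F A B := by
  obtain ⟨L, hL, huniv⟩ := exists_universal (trace_isNormalFilter hF hB) (hPP.2 B hB)
  obtain ⟨H₁, hH₁, hlt⟩ := hmin B hB
  refine ⟨L.map B.subtype ⊓ H₁, hF.inf_mem _ _ hL hH₁, hB, inf_le_right.trans_lt hlt,
    fun H hH hHB => ?_⟩
  have hmem : H.subgroupOf B ∈ trace F B := by
    show (H.subgroupOf B).map B.subtype ∈ F
    rw [Subgroup.map_subgroupOf_eq_of_le hHB]
    exact hH
  obtain ⟨b, hb⟩ := huniv _ hmem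
  refine ⟨b, b.2, (conjBy_mono _ inf_le_left).trans ?_⟩
  have := Subgroup.map_mono (f := B.subtype) hb
  rwa [map_conjBy, Subgroup.map_subgroupOf_eq_of_le hHB] at this

/-- A good pair contains two consecutive good pairs. -/
lemma Good.split (hF : IsNormalFilter F) (hPP : ModelPartitionPrinciple F)
    (hmin : ∀ B ∈ F, ∃ H ∈ F, H < B) {A B : Subgroup G} (h : Good F A B) :
    ∃ A' B', A ≤ A' ∧ Good F A' B' ∧ Good F B' B := by
  obtain ⟨U, hU⟩ := exists_good hF hPP hmin h.memA
  obtain ⟨b, hb, hle⟩ := h.univ U hU.memA (hU.lt.le.trans h.lt.le)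
  have hc : b⁻¹ ∈ B := B.inv_mem hb
  refine ⟨conjBy b⁻¹ U, conjBy b⁻¹ A, conjBy_le_iff.1 hle, ⟨hF.conj_mem _ _ hU.memA,
    hF.conj_mem _ _ h.memA, conjBy_lt _ hU.lt, fun H hH hHA => ?_⟩,
    hF.conj_mem _ _ h.memA, h.memB, ?_, fun H hH hHB => ?_⟩
  · obtain ⟨a, ha, hle'⟩ := hU.univ (conjBy b H) (hF.conj_mem _ _ hH) (by
      simpa [conjBy_conjBy, conjBy_one] using conjBy_mono b hHA)
    refine ⟨b⁻¹ * a * b, ⟨a, ha, by simp⟩, ?_⟩
    have := conjBy_mono b⁻¹ hle'
    simpa [conjBy_conjBy, conjBy_one, mul_assoc] using this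
  · simpa [conjBy_self hc] using conjBy_lt b⁻¹ h.lt
  · obtain ⟨d, hd, hle'⟩ := h.univ H hH hHB
    exact ⟨d * b, B.mul_mem hd hb, by simpa [conjBy_conjBy, mul_assoc] using hle'⟩

/-- A good pair contains two separated good pairs. -/
lemma Good.two (hF : IsNormalFilter F) (hPP : ModelPartitionPrinciple F)
    (hmin : ∀ B ∈ F, ∃ H ∈ F, H < B) {A B : Subgroup G} (h : Good F A B) :
    ∃ p q : Subgroup G × Subgroup G, Good F p.1 p.2 ∧ Good F q.1 q.2 ∧
      A ≤ p.1 ∧ A ≤ q.1 ∧ p.2 ≤ B ∧ q.2 ≤ B ∧ p.2 < q.1 := by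
  obtain ⟨A₁, B₁, ha₁, h₁, r₁⟩ := h.split hF hPP hmin
  obtain ⟨A₂, B₂, ha₂, h₂, r₂⟩ := r₁.split hF hPP hmin
  obtain ⟨A₃, B₃, ha₃, h₃, r₃⟩ := r₂.split hF hPP hmin
  have hgap : B₁ < A₃ := (ha₂.trans_lt h₂.lt).trans_le ha₃
  exact ⟨(A₁, B₁), (A₃, B₃), h₁, h₃, ha₁, (ha₁.trans h₁.lt.le).trans hgap.le,
    r₁.lt.le, r₃.lt.le, hgap⟩

/-- A good pair has continuum many members of the filter between its two sides. -/
theorem continuum_members (hF : IsNormalFilter F) (hPP : ModelPartitionPrinciple F)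
    (hmin : ∀ B ∈ F, ∃ H ∈ F, H < B) {B : Subgroup G} (hB : B ∈ F) :
    ∃ V : (ℕ → Bool) → Subgroup G, Function.Injective V ∧ ∀ b, V b ∈ F ∧ V b ≤ B := by
  obtain ⟨A, hA⟩ := exists_good hF hPP hmin hB
  let T := {p : Subgroup G × Subgroup G // Good F p.1 p.2}
  have next' : ∀ p : T, ∃ f : Bool → T, (∀ c, p.1.1 ≤ (f c).1.1 ∧ (f c).1.2 ≤ p.1.2) ∧
      (f false).1.2 < (f true).1.1 := by
    rintro ⟨⟨A, B⟩, h⟩
    obtain ⟨p, q, hp, hq, h1, h2, h3, h4, h5⟩ := h.two hF hPP hmin
    refine ⟨fun c => bif c then ⟨q, hq⟩ else ⟨p, hp⟩, fun c => ?_, h5⟩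
    cases c
    · exact ⟨h1, h3⟩
    · exact ⟨h2, h4⟩
  choose f hf hgap using next'
  let node : (ℕ → Bool) → ℕ → T := fun b n => Nat.rec ⟨(A, B), hA⟩ (fun k t => f t (b k)) n
  have mono : ∀ b, Monotone fun n => (node b n).1.1 := fun b =>
    monotone_nat_of_le_succ fun n => (hf (node b n) (b n)).1
  have anti : ∀ b, Antitone fun n => (node b n).1.2 := fun b =>
    antitone_nat_of_succ_le fun n => (hf (node b n) (b n)).2
  let V : (ℕ → Bool) → Subgroup G := fun b => ⨆ n, (node b n).1.1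
  have hup : ∀ b n, V b ≤ (node b n).1.2 := fun b n => iSup_le fun m =>
    (mono b (le_max_left m n)).trans ((node b (max m n)).2.lt.le.trans (anti b (le_max_right m n)))
  have hlow : ∀ b n, (node b n).1.1 ≤ V b := fun b n =>
    le_iSup (fun n => (node b n).1.1) n
  refine ⟨V, ?_, fun b => ⟨hF.upward _ _ hA.memA (hlow b 0), hup b 0⟩⟩
  intro b b' hbb'
  by_contra hne
  classical
  have hex : ∃ n, b n ≠ b' n := Function.ne_iff.1 hne
  have hsame : ∀ n ≤ Nat.find hex, node b n = node b' n := by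
    intro n
    induction n with
    | zero => intro _; rfl
    | succ n ih =>
      intro hn
      show f (node b n) (b n) = f (node b' n) (b' n)
      rw [ih (Nat.le_of_succ_le hn), not_not.1 (Nat.find_min hex hn)]
  have key : ∀ c c' : ℕ → Bool, node c (Nat.find hex) = node c' (Nat.find hex) →
      c (Nat.find hex) = false → c' (Nat.find hex) = true → V c < V c' := by
    intro c c' heq hc hc'
    have h1 := hup c (Nat.find hex + 1)
    have h2 := hlow c' (Nat.find hex + 1)
    have e1 : node c (Nat.find hex + 1) = f (node c (Nat.find hex)) false := by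
      show f _ (c _) = _
      rw [hc]
    have e2 : node c' (Nat.find hex + 1) = f (node c (Nat.find hex)) true := by
      show f _ (c' _) = _
      rw [hc', heq]
    rw [e1] at h1
    rw [e2] at h2
    exact (h1.trans_lt (hgap _)).trans_le h2
  have hn := Nat.find_spec hex
  cases h1 : b (Nat.find hex) <;> cases h2 : b' (Nat.find hex)
  · exact hn (h1.trans h2.symm)
  · exact (key b b' (hsame _ le_rfl) h1 h2).ne hbb'
  · exact (key b' b (hsame _ le_rfl).symm h2 h1).ne hbb'.symm
  · exact hn (h1.trans h2.symm)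

/-- If every orbit is smaller than the continuum, some member of the filter lies below all. -/
theorem exists_least_or_large (hF : IsNormalFilter F) (hPP : ModelPartitionPrinciple F) :
    (∃ L₀ ∈ F, ∀ H ∈ F, L₀ ≤ H) ∨ ∃ H ∈ F, (𝔠 : Cardinal.{u}) ≤ #(G ⧸ H) := by
  by_cases hmin : ∀ B ∈ F, ∃ H ∈ F, H < B
  · right
    obtain ⟨L₀, hL₀F, hL₀⟩ := exists_universal hF hPP.1
    obtain ⟨T, hT, hcode⟩ := exists_coding hF hPP.1 hL₀ hL₀F le_rfl
    obtain ⟨V, hV, hVT⟩ := continuum_members hF hPP hmin hT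
    refine ⟨L₀, hL₀F, ?_⟩
    choose g hg using fun b => hcode (V b) (hVT b).1 (hVT b).2
    let c : ULift.{u} (ℕ → Bool) → G ⧸ L₀ := fun b => (g b.down : G ⧸ L₀)
    have hc : Function.Injective c := by
      rintro ⟨b⟩ ⟨b'⟩ h
      have h' : ((g b : G) : G ⧸ L₀) = ((g b' : G) : G ⧸ L₀) := h
      have : conjBy (g b) L₀ = conjBy (g b') L₀ := by
        rw [← stab_coset, ← stab_coset, h']
      exact congrArg ULift.up (hV (by rw [hg b, hg b', this]))
    have := Cardinal.mk_le_of_injective hc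
    simpa using this
  · left
    push Not at hmin
    obtain ⟨B, hB, hBmin⟩ := hmin
    refine ⟨B, hB, fun H hH => ?_⟩
    have := hBmin (H ⊓ B) (hF.inf_mem _ _ hH hB)
    by_contra hne
    exact this (inf_le_right.lt_of_ne fun h => hne (h ▸ inf_le_left))

end Vale.Agent.P323
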